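import Vale.Agent.P297.MathlibUsed

open CategoryTheory AlgebraicGeometry

namespace Vale.Agent.P297

/-- A place of a field `E`: a valuation subring of `E` that is a discrete valuation ring. -/
structure Place (E : Type*) [Field E] where
  /-- the valuation subring -/
  ring : ValuationSubring E
  dvr : IsDiscreteValuationRing ring

/-- The order of vanishing of `u` at the place `v`. -/
noncomputable def Place.ord {E : Type*} [Field E] (v : Place E) (u : E) : ℤ :=
  haveI := v.dvr
  WithZero.log (Ring.ordFrac v.ring u)

/-- The spectrum of the valuation ring of the place `v`. -/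
noncomputable abbrev Place.spec {E : Type} [Field E] (v : Place E) : Scheme.{0} :=
  Spec (.of v.ring)

/-- The generic point `Spec E ⟶ Spec 𝒪_v`. -/
noncomputable abbrev Place.generic {E : Type} [Field E] (v : Place E) :
    Spec (.of E) ⟶ v.spec :=
  Spec.map (CommRingCat.ofHom (algebraMap v.ring E))

/-- For a morphism `γ : Spec E ⟶ S`, the place `v` of `E` is centred at the point `x` of `S`:
`γ` extends to a morphism `Spec 𝒪_v ⟶ S` that maps the closed point to `x`. -/
def IsCenter {S : Scheme.{0}} {E : Type} [Field E] (γ : Spec (.of E) ⟶ S) (v : Place E) (x : S) :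
    Prop :=
  ∃ g : v.spec ⟶ S, v.generic ≫ g = γ ∧ g (IsLocalRing.closedPoint v.ring) = x

/-- The coefficient at `x` of the pushforward to `S` of the divisor of `u`. -/
noncomputable def divCoeff {S : Scheme.{0}} {E : Type} [Field E] (γ : Spec (.of E) ⟶ S) (u : E)
    (x : S) : ℤ :=
  ∑ᶠ v : {v : Place E // IsCenter γ v x}, v.1.ord u

/-- The ring homomorphism `ℂ → R` of a morphism `Spec R ⟶ S ⟶ Spec ℂ`. -/
noncomputable def constHom {S : Scheme.{0}} (f : S ⟶ Spec (.of ℂ)) {R : CommRingCat.{0}}
    (γ : Spec R ⟶ S) : ℂ →+* R :=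
  (Spec.preimage (γ ≫ f)).hom

/-- `η` is the generic point of an integral curve in `S`: its residue field has
transcendence degree one over `ℂ`. -/
def IsCurvePoint {S : Scheme.{0}} (f : S ⟶ Spec (.of ℂ)) (η : S) : Prop :=
  letI := (constHom f (S.fromSpecResidueField η)).toAlgebra
  Algebra.trdeg ℂ (S.residueField η) = 1

/-- The closed points of `S`. -/
abbrev ClosedPt (S : Scheme.{0}) : Type := closedPoints S

/-- Zero-cycles on `S`: the free abelian group on the closed points. -/
abbrev ZeroCycle (S : Scheme.{0}) : Type := ClosedPt S →₀ ℤ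

/-- The zero-cycle `z` is the pushforward to `S` of the divisor of a nonzero rational function `u`
on the normalization of the integral curve with generic point `η`. -/
def IsPrincipalCycle {S : Scheme.{0}} (f : S ⟶ Spec (.of ℂ)) (z : ZeroCycle S) : Prop :=
  ∃ η : S, IsCurvePoint f η ∧ ∃ u : S.residueField η, u ≠ 0 ∧
    ∀ x : ClosedPt S, z x = divCoeff (S.fromSpecResidueField η) u x

/-- The group of zero-cycles rationally equivalent to zero. -/
noncomputable def Rat {S : Scheme.{0}} (f : S ⟶ Spec (.of ℂ)) : AddSubgroup (ZeroCycle S) :=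
  AddSubgroup.closure {z | IsPrincipalCycle f z}

/-- Two closed points of `S` are rationally equivalent. -/
def RatEquiv {S : Scheme.{0}} (f : S ⟶ Spec (.of ℂ)) (x y : ClosedPt S) : Prop :=
  Finsupp.single x 1 - Finsupp.single y 1 ∈ Rat f

/-- `K` is the field of rational functions of the integral `ℂ`-scheme `S`. -/
def IsFunctionFieldOf {S : Scheme.{0}} [IsIntegral S] (f : S ⟶ Spec (.of ℂ)) (K : Type)
    [Field K] [Algebra ℂ K] : Prop :=
  ∃ e : S.functionField ≃+* K,
    ∀ a : ℂ, e (constHom f (S.fromSpecStalk (genericPoint S)) a) = algebraMap ℂ K a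

end Vale.Agent.P297
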