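import Vale.Agent.P297.Defs

open CategoryTheory AlgebraicGeometry

namespace Vale.Agent.P297

/-- The cubic `g(s) = s (s - 1) (s - c)`. -/
noncomputable def gg (c : ℂ) {N : Type} [Field N] [Algebra ℂ N] (s : N) : N :=
  s * (s - 1) * (s - algebraMap ℂ N c)

/-- The symmetric polynomial
`Φ(s,t) = (t - κ s) (s - κ t) (s + t - 1 - κ) ((1 + κ) s t - κ (s + t))`. -/
noncomputable def Phi (κ : ℂ) {N : Type} [Field N] [Algebra ℂ N] (s t : N) : N :=
  (t - algebraMap ℂ N κ * s) * (s - algebraMap ℂ N κ * t) * (s + t - 1 - algebraMap ℂ N κ) *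
    ((1 + algebraMap ℂ N κ) * (s * t) - algebraMap ℂ N κ * (s + t))

end Vale.Agent.P297
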