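import Mathlib.Algebra.Lie.OfAssociative
import Mathlib.Algebra.MvPolynomial.Funext
import Mathlib.Algebra.Order.Ring.Star
import Mathlib.AlgebraicGeometry.AlgClosed.Basic
import Mathlib.AlgebraicGeometry.FunctionField
import Mathlib.AlgebraicGeometry.Morphisms.FinitePresentation
import Mathlib.AlgebraicGeometry.ValuativeCriterion
import Mathlib.Analysis.CStarAlgebra.Classes
import Mathlib.Analysis.Complex.Polynomial.Basic
import Mathlib.CategoryTheory.Sites.Types
import Mathlib.Combinatorics.Quiver.ReflQuiver
import Mathlib.Data.Int.Star
import Mathlib.Order.CompletePartialOrder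
import Mathlib.RingTheory.Etale.Weakly
import Mathlib.RingTheory.Finiteness.ModuleFinitePresentation
import Mathlib.RingTheory.Henselian
import Mathlib.RingTheory.Ideal.Norm.RelNorm
import Mathlib.RingTheory.IntegralClosure.GoingDown
import Mathlib.RingTheory.MvPolynomial.IrreducibleQuadratic
import Mathlib.RingTheory.NoetherNormalization
import Mathlib.RingTheory.Nullstellensatz
import Mathlib.RingTheory.OrderOfVanishing.Noetherian
import Mathlib.RingTheory.PicardGroup
import Mathlib.RingTheory.Polynomial.DegreeLT
import Mathlib.RingTheory.Polynomial.IsIntegral
import Mathlib.RingTheory.RegularLocalRing.Defs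
import Mathlib.RingTheory.SimpleRing.Principal
import Mathlib.RingTheory.TotallySplit
import Mathlib.Tactic

/-! The part of Mathlib that the development of this folder uses. -/
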